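import Mathlib

/-!
# P017, module M3: Euler product comparison and a bound for a twisted Dirichlet series
-/

open Finset

namespace Vale.Agent.P017.R2.H160

/-- `2^{-Ω(n)} n^{-σ}` on odd `n` -/
noncomputable def lam' (σ : ℝ) (n : ℕ) : ℝ :=
  if Odd n then (1 / 2 : ℝ) ^ (ArithmeticFunction.cardFactors n) * (n : ℝ) ^ (-σ) else 0

theorem lam'_mul (σ : ℝ) (m n : ℕ) : lam' σ (m * n) = lam' σ m * lam' σ n := by
  unfold lam'
  by_cases hm : Odd m
  · by_cases hn : Odd n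
    · have hm0 : m ≠ 0 := by rintro rfl; simp at hm
      have hn0 : n ≠ 0 := by rintro rfl; simp at hn
      rw [if_pos (hm.mul hn), if_pos hm, if_pos hn,
        ArithmeticFunction.cardFactors_mul hm0 hn0, pow_add, Nat.cast_mul,
        Real.mul_rpow (Nat.cast_nonneg m) (Nat.cast_nonneg n)]
      ring
    · rw [if_neg hn, if_neg, mul_zero]
      rw [Nat.odd_mul]; tauto
  · rw [if_neg hm, if_neg, zero_mul]
    rw [Nat.odd_mul]; tauto

theorem lam'_one (σ : ℝ) : lam' σ 1 = 1 := by simp [lam']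

theorem lam'_zero (σ : ℝ) : lam' σ 0 = 0 := by simp [lam']

theorem lam'_nonneg (σ : ℝ) (n : ℕ) : 0 ≤ lam' σ n := by
  unfold lam'; split_ifs
  · positivity
  · exact le_rfl

theorem lam'_le (σ : ℝ) (n : ℕ) : lam' σ n ≤ (n : ℝ) ^ (-σ) := by
  unfold lam'; split_ifs
  · have h1 : ((1 : ℝ) / 2) ^ (ArithmeticFunction.cardFactors n) ≤ 1 :=
      pow_le_one₀ (by norm_num) (by norm_num)
    have h2 : 0 ≤ (n : ℝ) ^ (-σ) := by positivity
    nlinarith
  · positivity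

/-- the two completely multiplicative functions -/
noncomputable def fHom (σ : ℝ) (χ : ℕ → ℤ) (h1 : χ 1 = 1)
    (hm : ∀ n n', χ (n * n') = χ n * χ n') : ℕ →*₀ ℝ where
  toFun n := lam' σ n * χ n
  map_zero' := by rw [lam'_zero, zero_mul]
  map_one' := by rw [lam'_one, h1]; norm_num
  map_mul' m n := by rw [lam'_mul, hm]; push_cast; ring

noncomputable def gHom (σ : ℝ) (χ : ℕ → ℤ) (h0 : χ 0 = 0) (h1 : χ 1 = 1)
    (hm : ∀ n n', χ (n * n') = χ n * χ n') : ℕ →*₀ ℝ where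
  toFun n := (χ n : ℝ) * (n : ℝ) ^ (-σ)
  map_zero' := by rw [h0]; simp
  map_one' := by rw [h1]; simp
  map_mul' m n := by
    rw [hm, Nat.cast_mul, Real.mul_rpow (Nat.cast_nonneg m) (Nat.cast_nonneg n)]
    push_cast; ring

theorem summable_neg_rpow {σ : ℝ} (hσ : 1 < σ) : Summable fun n : ℕ => (n : ℝ) ^ (-σ) := by
  have := (Real.summable_nat_rpow (p := -σ)).2 (by linarith)
  exact this

theorem abs_cast_le {χ : ℕ → ℤ} (hb : ∀ n, |χ n| ≤ 1) (n : ℕ) : |(χ n : ℝ)| ≤ 1 := by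
  have := hb n
  exact_mod_cast this

theorem ep (χ : ℕ → ℤ) (h1 : χ 1 = 1) (hb : ∀ n, |χ n| ≤ 1)
    (hm : ∀ n n', χ (n * n') = χ n * χ n') (he : ∀ n, Even n → χ n = 0) (σ : ℝ) (hσ : 1 < σ) :
    0 ≤ ∑' n, lam' σ n * χ n ∧
      (∑' n, lam' σ n * χ n) ^ 2 ≤ ∑' n : ℕ, (χ n : ℝ) * (n : ℝ) ^ (-σ) := by
  have h0 : χ 0 = 0 := he 0 (by simp)
  set f := fHom σ χ h1 hm with hf
  set g := gHom σ χ h0 h1 hm with hg
  have hs := summable_neg_rpow hσ
  have hfs : Summable fun n => ‖f n‖ := by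
    refine Summable.of_nonneg_of_le (fun n => norm_nonneg _) (fun n => ?_) hs
    have : f n = lam' σ n * χ n := rfl
    rw [this, norm_mul, Real.norm_eq_abs, Real.norm_eq_abs, abs_of_nonneg (lam'_nonneg σ n)]
    calc lam' σ n * |(χ n : ℝ)| ≤ lam' σ n * 1 :=
          mul_le_mul_of_nonneg_left (abs_cast_le hb n) (lam'_nonneg σ n)
      _ ≤ _ := by rw [mul_one]; exact lam'_le σ n
  have hgs : Summable fun n => ‖g n‖ := by
    refine Summable.of_nonneg_of_le (fun n => norm_nonneg _) (fun n => ?_) hs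
    have : g n = (χ n : ℝ) * (n : ℝ) ^ (-σ) := rfl
    have h2 : 0 ≤ (n : ℝ) ^ (-σ) := by positivity
    rw [this, norm_mul, Real.norm_eq_abs, Real.norm_eq_abs, abs_of_nonneg h2]
    calc |(χ n : ℝ)| * (n : ℝ) ^ (-σ) ≤ 1 * (n : ℝ) ^ (-σ) :=
          mul_le_mul_of_nonneg_right (abs_cast_le hb n) h2
      _ = _ := one_mul _
  have hF := EulerProduct.eulerProduct_completely_multiplicative_hasProd (f := f) hfs
  have hG := EulerProduct.eulerProduct_completely_multiplicative_hasProd (f := g) hgs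
  -- values at primes
  have hhalf : ∀ p : Nat.Primes, f p = g p / 2 := by
    intro p
    have e1 : f p = lam' σ p * χ p := rfl
    have e2 : g p = (χ (p : ℕ) : ℝ) * ((p : ℕ) : ℝ) ^ (-σ) := rfl
    rw [e1, e2]
    by_cases ho : Odd (p : ℕ)
    · unfold lam'
      rw [if_pos ho, ArithmeticFunction.cardFactors_apply_prime p.2]
      ring
    · have : χ (p : ℕ) = 0 := he _ (Nat.not_odd_iff_even.1 ho)
      rw [this]; simp
  have hlt : ∀ p : Nat.Primes, |g p| < 1 := by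
    intro p
    have e2 : g p = (χ (p : ℕ) : ℝ) * ((p : ℕ) : ℝ) ^ (-σ) := rfl
    have h2 : 0 ≤ ((p : ℕ) : ℝ) ^ (-σ) := by positivity
    rw [e2, abs_mul, abs_of_nonneg h2]
    have h3 : ((p : ℕ) : ℝ) ^ (-σ) < 1 := by
      apply Real.rpow_lt_one_of_one_lt_of_neg
      · exact_mod_cast p.2.one_lt
      · linarith
    calc |(χ (p : ℕ) : ℝ)| * ((p : ℕ) : ℝ) ^ (-σ) ≤ 1 * ((p : ℕ) : ℝ) ^ (-σ) :=
          mul_le_mul_of_nonneg_right (abs_cast_le hb _) h2
      _ < 1 := by rw [one_mul]; exact h3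
  have hpos : ∀ p : Nat.Primes, 0 ≤ (1 - f p)⁻¹ := by
    intro p
    have := abs_lt.1 (hlt p)
    rw [hhalf]
    apply inv_nonneg.2; linarith [this.2]
  have hle : ∀ p : Nat.Primes, ((1 - f p)⁻¹) ^ 2 ≤ (1 - g p)⁻¹ := by
    intro p
    have h4 := abs_lt.1 (hlt p)
    rw [hhalf, inv_pow]
    apply inv_anti₀
    · linarith [h4.2]
    · nlinarith [sq_nonneg (g p)]
  have hF0 : 0 ≤ ∑' n, f n :=
    ge_of_tendsto hF (Filter.Eventually.of_forall fun s => Finset.prod_nonneg fun p _ => hpos p)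
  refine ⟨hF0, ?_⟩
  have hF2 := hF.pow 2
  refine le_of_tendsto_of_tendsto hF2 hG (Filter.Eventually.of_forall fun s => ?_)
  change ∏ p ∈ s, (1 - f p)⁻¹ ^ 2 ≤ ∏ p ∈ s, (1 - g p)⁻¹
  exact Finset.prod_le_prod (fun p _ => by have := hpos p; positivity) (fun p _ => hle p)

/-! ### bounded partial sums -/

theorem abel (u g : ℕ → ℝ) (a n : ℕ) (h : a ≤ n) :
    ∑ k ∈ Ico a n, u k * g k = (∑ k ∈ Ico a n, u k) * g n +
      ∑ k ∈ Ico a n, (∑ l ∈ Ico a (k + 1), u l) * (g k - g (k + 1)) := by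
  induction n, h using Nat.le_induction with
  | base => simp
  | succ n hn ih =>
    rw [Finset.sum_Ico_succ_top hn, Finset.sum_Ico_succ_top hn, ih,
      Finset.sum_Ico_succ_top hn (fun k => (∑ l ∈ Ico a (k + 1), u l) * (g k - g (k + 1))),
      Finset.sum_Ico_succ_top hn]
    ring

theorem abel_bound (u g : ℕ → ℝ) (a n : ℕ) (h : a ≤ n) (B : ℝ)
    (hB : ∀ k, |∑ l ∈ Ico a k, u l| ≤ B) (hg : ∀ k, a ≤ k → 0 ≤ g k)
    (hanti : ∀ k, a ≤ k → g (k + 1) ≤ g k) :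
    ∑ k ∈ Ico a n, u k * g k ≤ B * g a := by
  rw [abel u g a n h]
  have h1 : (∑ k ∈ Ico a n, u k) * g n ≤ B * g n :=
    mul_le_mul_of_nonneg_right ((le_abs_self _).trans (hB n)) (hg n h)
  have h2 : ∑ k ∈ Ico a n, (∑ l ∈ Ico a (k + 1), u l) * (g k - g (k + 1)) ≤
      ∑ k ∈ Ico a n, B * (g k - g (k + 1)) := by
    apply Finset.sum_le_sum
    intro k hk
    exact mul_le_mul_of_nonneg_right ((le_abs_self _).trans (hB _))
      (sub_nonneg.2 (hanti k (Finset.mem_Ico.1 hk).1))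
  have h3 : ∑ k ∈ Ico a n, (g k - g (k + 1)) = g a - g n := by
    have := Finset.sum_Ico_sub (fun k => - g k) h
    have h4 : ∑ k ∈ Ico a n, (g k - g (k + 1)) = ∑ k ∈ Ico a n, (- g (k + 1) - - g k) :=
      Finset.sum_congr rfl fun k _ => by ring
    rw [h4, this]; ring
  rw [← Finset.mul_sum, h3] at h2
  nlinarith

theorem lb (χ : ℕ → ℤ) (hb : ∀ n, |χ n| ≤ 1) (h0 : χ 0 = 0) (q : ℕ) (hq : 1 ≤ q)
    (hN : ∀ N : ℕ, |∑ n ∈ range N, χ n| ≤ q) (σ : ℝ) (hσ : 1 < σ) :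
    ∑' n : ℕ, (χ n : ℝ) * (n : ℝ) ^ (-σ) ≤ Real.log q + 4 := by
  have hs := summable_neg_rpow hσ
  have hsum : Summable fun n : ℕ => (χ n : ℝ) * (n : ℝ) ^ (-σ) := by
    refine Summable.of_norm (Summable.of_nonneg_of_le (fun n => norm_nonneg _) (fun n => ?_) hs)
    have h2 : 0 ≤ (n : ℝ) ^ (-σ) := by positivity
    rw [norm_mul, Real.norm_eq_abs, Real.norm_eq_abs, abs_of_nonneg h2]
    calc |(χ n : ℝ)| * (n : ℝ) ^ (-σ) ≤ 1 * (n : ℝ) ^ (-σ) :=
          mul_le_mul_of_nonneg_right (abs_cast_le hb n) h2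
      _ = _ := one_mul _
  have ht := hsum.hasSum.tendsto_sum_nat
  refine le_of_tendsto ht ?_
  filter_upwards [Filter.eventually_ge_atTop (q + 1)] with M hM
  rw [← Finset.sum_range_add_sum_Ico _ hM]
  -- head
  have hhead : ∑ n ∈ range (q + 1), (χ n : ℝ) * (n : ℝ) ^ (-σ) ≤ 1 + Real.log q := by
    rw [Finset.sum_range_succ']
    rw [h0]
    simp only [Int.cast_zero, zero_mul, add_zero]
    calc ∑ n ∈ range q, (χ (n + 1) : ℝ) * ((n + 1 : ℕ) : ℝ) ^ (-σ)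
        ≤ ∑ n ∈ range q, ((n + 1 : ℕ) : ℝ)⁻¹ := by
          apply Finset.sum_le_sum
          intro n _
          have h2 : 0 ≤ ((n + 1 : ℕ) : ℝ) ^ (-σ) := by positivity
          have h3 : ((n + 1 : ℕ) : ℝ) ^ (-σ) ≤ ((n + 1 : ℕ) : ℝ) ^ (-1 : ℝ) := by
            apply Real.rpow_le_rpow_of_exponent_le
            · exact_mod_cast Nat.succ_le_succ (Nat.zero_le n)
            · linarith
          rw [Real.rpow_neg_one] at h3
          calc (χ (n + 1) : ℝ) * ((n + 1 : ℕ) : ℝ) ^ (-σ)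
              ≤ |(χ (n + 1) : ℝ)| * ((n + 1 : ℕ) : ℝ) ^ (-σ) :=
                mul_le_mul_of_nonneg_right (le_abs_self _) h2
            _ ≤ 1 * ((n + 1 : ℕ) : ℝ) ^ (-σ) :=
                mul_le_mul_of_nonneg_right (abs_cast_le hb _) h2
            _ ≤ _ := by rw [one_mul]; exact h3
      _ = ((harmonic q : ℚ) : ℝ) := by
          rw [harmonic]; push_cast; rfl
      _ ≤ 1 + Real.log q := harmonic_le_one_add_log q
  -- tail
  have hqr : (1 : ℝ) ≤ q := by exact_mod_cast hq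
  have hB : ∀ k, |∑ l ∈ Ico (q + 1) k, (χ l : ℝ)| ≤ 2 * q := by
    intro k
    rcases le_or_gt (q + 1) k with hk | hk
    · rw [Finset.sum_Ico_eq_sub _ hk]
      have e1 : |∑ n ∈ range k, (χ n : ℝ)| ≤ q := by
        have := hN k
        exact_mod_cast this
      have e2 : |∑ n ∈ range (q + 1), (χ n : ℝ)| ≤ q := by
        have := hN (q + 1)
        exact_mod_cast this
      calc |∑ n ∈ range k, (χ n : ℝ) - ∑ n ∈ range (q + 1), (χ n : ℝ)|
          ≤ |∑ n ∈ range k, (χ n : ℝ)| + |∑ n ∈ range (q + 1), (χ n : ℝ)| := abs_sub _ _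
        _ ≤ _ := by linarith
    · rw [Finset.Ico_eq_empty (by omega)]
      simp
  have htail : ∑ n ∈ Ico (q + 1) M, (χ n : ℝ) * (n : ℝ) ^ (-σ) ≤
      2 * q * ((q + 1 : ℕ) : ℝ) ^ (-σ) := by
    apply abel_bound (fun n => (χ n : ℝ)) (fun n => (n : ℝ) ^ (-σ)) (q + 1) M hM (2 * q) hB
    · intro k _; positivity
    · intro k hk
      have hk0 : (0 : ℝ) < k := by
        have : 0 < k := by omega
        exact_mod_cast this
      apply Real.rpow_le_rpow_of_nonpos hk0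
      · push_cast; linarith
      · linarith
  have h5 : ((q + 1 : ℕ) : ℝ) ^ (-σ) ≤ ((q + 1 : ℕ) : ℝ)⁻¹ := by
    rw [← Real.rpow_neg_one]
    apply Real.rpow_le_rpow_of_exponent_le
    · push_cast; linarith
    · linarith
  have h6 : 2 * (q : ℝ) * ((q + 1 : ℕ) : ℝ)⁻¹ ≤ 2 := by
    have hpos : (0 : ℝ) < ((q + 1 : ℕ) : ℝ) := by positivity
    rw [← div_eq_mul_inv, div_le_iff₀ hpos]
    push_cast; linarith
  have h7 : 2 * (q : ℝ) * ((q + 1 : ℕ) : ℝ) ^ (-σ) ≤ 2 := by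
    have : 2 * (q : ℝ) * ((q + 1 : ℕ) : ℝ) ^ (-σ) ≤ 2 * (q : ℝ) * ((q + 1 : ℕ) : ℝ)⁻¹ :=
      mul_le_mul_of_nonneg_left h5 (by positivity)
    linarith
  linarith

end Vale.Agent.P017.R2.H160
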