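import Vale.Agent.P017.R2.H985.Defs
import Vale.Agent.P017.R2.H160.EPLB

/-!
# P017, module M3: `StmtEP` and `StmtLB`
-/

namespace Vale.Agent.P017.R2.H160

theorem stmtEP : Vale.Agent.P017.R2.H985.StmtEP := by
  intro χ h1 hb hm he σ hσ
  exact ep χ h1 hb hm he σ hσ

theorem stmtLB : Vale.Agent.P017.R2.H985.StmtLB := by
  intro χ hb h0 q hq hN σ hσ
  exact lb χ hb h0 q hq hN σ hσ

end Vale.Agent.P017.R2.H160
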